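import Mathlib
import Vale.Agent.Lib.P137.helper41.Defs

/-!
# P137 pool job C (backup copy, helper11): centered averages of a radially nonincreasing
function decrease with the radius

Proof without scaling: split the larger ball into the smaller ball and the shell; on the smaller
ball the function is at least `F s`, on the shell at most `F s`.
-/

namespace Vale.Agent.Lib.P137.H11

open Vale.Agent.Lib.P137 MeasureTheory Metric
open scoped ENNReal

theorem cavg_anti {d : ℕ} (hd : 1 ≤ d) (F : ℝ → ℝ≥0∞) (hF : Antitone F) {s t : ℝ}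
    (hs : 0 < s) (hst : s ≤ t) : cavg d F t ≤ cavg d F s := by
  have _hd := hd
  unfold cavg
  set Bs : Set (E d) := ball (0 : E d) s with hBs
  set Bt : Set (E d) := ball (0 : E d) t with hBt
  have hsub : Bs ⊆ Bt := ball_subset_ball hst
  have hVs0 : volume Bs ≠ 0 := (measure_ball_pos volume (0 : E d) hs).ne'
  have hVsT : volume Bs ≠ ⊤ := measure_ball_lt_top.ne
  have hVt0 : volume Bt ≠ 0 :=
    (measure_ball_pos volume (0 : E d) (lt_of_lt_of_le hs hst)).ne'
  have hVtT : volume Bt ≠ ⊤ := measure_ball_lt_top.ne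
  have hV : volume Bt = volume Bs + volume (Bt \ Bs) := by
    rw [measure_add_sdiff measurableSet_ball.nullMeasurableSet,
      Set.union_eq_self_of_subset_left hsub]
  have hI : F s * volume Bs ≤ ∫⁻ z in Bs, F ‖z‖ := by
    calc F s * volume Bs = ∫⁻ _z in Bs, F s := by rw [setLIntegral_const]
      _ ≤ ∫⁻ z in Bs, F ‖z‖ :=
          setLIntegral_mono' measurableSet_ball
            (fun z hz => hF (le_of_lt (mem_ball_zero_iff.1 hz)))
  have hJ : ∫⁻ z in Bt \ Bs, F ‖z‖ ≤ F s * volume (Bt \ Bs) := by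
    calc ∫⁻ z in Bt \ Bs, F ‖z‖ ≤ ∫⁻ _z in Bt \ Bs, F s :=
          setLIntegral_mono' (measurableSet_ball.diff measurableSet_ball)
            (fun z hz => hF (not_lt.1 fun h => hz.2 (mem_ball_zero_iff.2 h)))
      _ = F s * volume (Bt \ Bs) := by rw [setLIntegral_const]
  have hsplit : ∫⁻ z in Bt, F ‖z‖ = (∫⁻ z in Bs, F ‖z‖) + ∫⁻ z in Bt \ Bs, F ‖z‖ := by
    have h := lintegral_inter_add_sdiff (μ := volume) (fun z : E d => F ‖z‖) Bt
      (measurableSet_ball : MeasurableSet Bs)
    rw [Set.inter_eq_self_of_subset_right hsub] at h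
    exact h.symm
  rw [ENNReal.div_le_iff hVt0 hVtT, hsplit, hV, mul_add, ENNReal.div_mul_cancel hVs0 hVsT]
  refine add_le_add le_rfl ?_
  calc ∫⁻ z in Bt \ Bs, F ‖z‖ ≤ F s * volume (Bt \ Bs) := hJ
    _ ≤ (∫⁻ z in Bs, F ‖z‖) / volume Bs * volume (Bt \ Bs) := by
        refine mul_le_mul' ?_ le_rfl
        rw [ENNReal.le_div_iff_mul_le (Or.inl hVs0) (Or.inl hVsT)]
        exact hI

end Vale.Agent.Lib.P137.H11
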