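import Mathlib
import Vale.Agent.Lib.P137.helper41.Defs

/-!
# P137 bridge, pool job BR5 (backup copy, helper11): Tonelli for the tail integral

`(n + 1) ∫_0^∞ ρ^n ∫_ρ^∞ h = ∫_0^∞ s^(n+1) h(s) ds`, in `[0, ∞]`.
-/

namespace Vale.Agent.Lib.P137.H11

open Vale.Agent.Lib.P137 MeasureTheory Metric Set Filter
open scoped ENNReal NNReal Topology

/-- The kernel on the plane: `ρ^n h(s)` on the region `0 < ρ < s`. -/
noncomputable def tk (n : ℕ) (h : ℝ → ℝ≥0∞) (p : ℝ × ℝ) : ℝ≥0∞ :=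
  {q : ℝ × ℝ | 0 < q.1 ∧ q.1 < q.2}.indicator (fun q => ENNReal.ofReal (q.1 ^ n) * h q.2) p

theorem measurable_tk (n : ℕ) (h : ℝ → ℝ≥0∞) (hh : Measurable h) : Measurable (tk n h) := by
  unfold tk
  refine Measurable.indicator ?_ ?_
  · exact (ENNReal.measurable_ofReal.comp (measurable_fst.pow_const n)).mul
      (hh.comp measurable_snd)
  · have h1 : MeasurableSet {q : ℝ × ℝ | 0 < q.1} :=
      measurableSet_lt measurable_const measurable_fst
    have h2 : MeasurableSet {q : ℝ × ℝ | q.1 < q.2} :=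
      measurableSet_lt measurable_fst measurable_snd
    exact h1.inter h2

theorem tk_left (n : ℕ) (h : ℝ → ℝ≥0∞) (hh : Measurable h) (ρ : ℝ) :
    ∫⁻ s, tk n h (ρ, s) =
      (Ioi (0 : ℝ)).indicator (fun ρ => ENNReal.ofReal (ρ ^ n) * ∫⁻ s in Ioi ρ, h s) ρ := by
  by_cases hρ : 0 < ρ
  · rw [indicator_of_mem (mem_Ioi.2 hρ)]
    have h1 : ∀ s, tk n h (ρ, s) =
        (Ioi ρ).indicator (fun s => ENNReal.ofReal (ρ ^ n) * h s) s := by
      intro s
      unfold tk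
      by_cases hs : ρ < s
      · rw [indicator_of_mem (show (ρ, s) ∈ {q : ℝ × ℝ | 0 < q.1 ∧ q.1 < q.2} from ⟨hρ, hs⟩),
          indicator_of_mem (mem_Ioi.2 hs)]
      · rw [indicator_of_notMem (fun hc => hs hc.2),
          indicator_of_notMem (fun hc => hs (mem_Ioi.1 hc))]
    simp only [h1]
    rw [lintegral_indicator measurableSet_Ioi, lintegral_const_mul _ hh]
  · rw [indicator_of_notMem (fun hc => hρ (mem_Ioi.1 hc))]
    have h1 : ∀ s, tk n h (ρ, s) = 0 := by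
      intro s
      unfold tk
      rw [indicator_of_notMem (fun hc => hρ hc.1)]
    simp only [h1, lintegral_zero]

theorem lintegral_Ioo_pow (n : ℕ) {s : ℝ} (hs : 0 < s) :
    ∫⁻ ρ in Ioo 0 s, ENNReal.ofReal (ρ ^ n) = ENNReal.ofReal (s ^ (n + 1) / (n + 1)) := by
  have hint : IntegrableOn (fun ρ : ℝ => ρ ^ n) (Ioo 0 s) := by
    have h1 : IntegrableOn (fun ρ : ℝ => ρ ^ n) (Icc 0 s) :=
      (continuous_pow n).continuousOn.integrableOn_Icc
    exact h1.mono_set Ioo_subset_Icc_self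
  have hnn : 0 ≤ᵐ[volume.restrict (Ioo 0 s)] fun ρ : ℝ => ρ ^ n := by
    filter_upwards [ae_restrict_mem measurableSet_Ioo] with ρ hρ
    exact pow_nonneg hρ.1.le n
  rw [← ofReal_integral_eq_lintegral_ofReal hint hnn]
  congr 1
  rw [← integral_Ioc_eq_integral_Ioo, ← intervalIntegral.integral_of_le hs.le, integral_pow]
  simp

theorem tk_right (n : ℕ) (h : ℝ → ℝ≥0∞) (s : ℝ) :
    (n + 1 : ℝ≥0∞) * ∫⁻ ρ, tk n h (ρ, s) =
      (Ioi (0 : ℝ)).indicator (fun s => ENNReal.ofReal (s ^ (n + 1)) * h s) s := by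
  by_cases hs : 0 < s
  · rw [indicator_of_mem (mem_Ioi.2 hs)]
    have h1 : ∀ ρ, tk n h (ρ, s) =
        (Ioo 0 s).indicator (fun ρ => ENNReal.ofReal (ρ ^ n) * h s) ρ := by
      intro ρ
      unfold tk
      by_cases hρ : 0 < ρ ∧ ρ < s
      · rw [indicator_of_mem (show (ρ, s) ∈ {q : ℝ × ℝ | 0 < q.1 ∧ q.1 < q.2} from hρ),
          indicator_of_mem (mem_Ioo.2 hρ)]
      · rw [indicator_of_notMem (show (ρ, s) ∉ {q : ℝ × ℝ | 0 < q.1 ∧ q.1 < q.2} from hρ),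
          indicator_of_notMem (fun hc => hρ (mem_Ioo.1 hc))]
    simp only [h1]
    have hm : Measurable fun ρ : ℝ => ENNReal.ofReal (ρ ^ n) :=
      ENNReal.measurable_ofReal.comp (measurable_id.pow_const n)
    rw [lintegral_indicator measurableSet_Ioo, lintegral_mul_const _ hm,
      lintegral_Ioo_pow n hs, ← mul_assoc]
    congr 1
    have h2 : (n + 1 : ℝ≥0∞) = ENNReal.ofReal (n + 1) := by
      rw [ENNReal.ofReal_add (Nat.cast_nonneg n) zero_le_one, ENNReal.ofReal_natCast,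
        ENNReal.ofReal_one]
    rw [h2, ← ENNReal.ofReal_mul (by positivity)]
    congr 1
    field_simp
  · rw [indicator_of_notMem (fun hc => hs (mem_Ioi.1 hc))]
    have h1 : ∀ ρ, tk n h (ρ, s) = 0 := by
      intro ρ
      unfold tk
      rw [indicator_of_notMem (fun hc => hs (lt_trans hc.1 hc.2))]
    simp only [h1, lintegral_zero, mul_zero]

theorem tonelli_tail (n : ℕ) (h : ℝ → ℝ≥0∞) (hh : Measurable h) :
    (n + 1 : ℝ≥0∞) * ∫⁻ ρ in Ioi (0 : ℝ), ENNReal.ofReal (ρ ^ n) * ∫⁻ s in Ioi ρ, h s =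
      ∫⁻ s in Ioi (0 : ℝ), ENNReal.ofReal (s ^ (n + 1)) * h s := by
  rw [← lintegral_indicator measurableSet_Ioi, ← lintegral_indicator measurableSet_Ioi]
  have h1 : ∀ ρ, (Ioi (0 : ℝ)).indicator
      (fun ρ => ENNReal.ofReal (ρ ^ n) * ∫⁻ s in Ioi ρ, h s) ρ = ∫⁻ s, tk n h (ρ, s) :=
    fun ρ => (tk_left n h hh ρ).symm
  have h2 : ∀ s, (Ioi (0 : ℝ)).indicator (fun s => ENNReal.ofReal (s ^ (n + 1)) * h s) s =
      (n + 1 : ℝ≥0∞) * ∫⁻ ρ, tk n h (ρ, s) := fun s => (tk_right n h s).symm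
  simp only [h1, h2]
  have hsw : ∫⁻ ρ, ∫⁻ s, tk n h (ρ, s) = ∫⁻ s, ∫⁻ ρ, tk n h (ρ, s) :=
    lintegral_lintegral_swap (f := fun ρ s => tk n h (ρ, s)) (measurable_tk n h hh).aemeasurable
  have htop : (n + 1 : ℝ≥0∞) ≠ ⊤ :=
    ENNReal.add_ne_top.2 ⟨ENNReal.natCast_ne_top n, ENNReal.one_ne_top⟩
  rw [hsw, lintegral_const_mul' _ _ htop]

end Vale.Agent.Lib.P137.H11
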